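import Vale.Agent.P133.Generated

/-!
P133: in a purely infinite algebra the inequalities of strong pure infiniteness hold for every
pair in which one of the two elements generates an ideal generated by projections.
-/

namespace Vale.Agent.Results.P133.OneSidedProjections

open Vale.Agent.P133

theorem result {C : Type*} [NonUnitalCStarAlgebra C] [PartialOrder C] [StarOrderedRing C]
    (hC : PurelyInfinite C) (x y : C) (hx : 0 ≤ x) (hy : 0 ≤ y)
    (hg : ProjectionGenerated x ∨ ProjectionGenerated y) (ε : ℝ) (hε : 0 < ε) : ∃ s t : C,
    ‖star s * (x * x) * s - x * x‖ < ε ∧ ‖star t * (y * y) * t - y * y‖ < ε ∧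
      ‖star s * (x * y) * t‖ < ε := by
  rcases hg with hg | hg
  · exact exists_pair_of_projectionGenerated hC hx hy hg hε
  · obtain ⟨t, s, ht, hs, hts⟩ := exists_pair_of_projectionGenerated hC hy hx hg hε
    refine ⟨s, t, hs, ht, ?_⟩
    have e : star s * (x * y) * t = star (star t * (y * x) * s) := by
      simp only [star_mul, star_star, (IsSelfAdjoint.of_nonneg hx).star_eq,
        (IsSelfAdjoint.of_nonneg hy).star_eq, mul_assoc]
    rw [e, norm_star]
    exact hts

end Vale.Agent.Results.P133.OneSidedProjections
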