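import Vale.Agent.P133.Orth.Main

/-!
P133 (b) reduced to one structural property: a weakly purely infinite algebra is purely infinite
exactly when its hereditary subalgebras have two almost orthogonal full elements. In particular
this holds when no quotient has a nonzero projection.
-/

namespace Vale.Agent.Results.P133.OrthogonalPairs

open Vale.Agent.P133

theorem result {C : Type*} [NonUnitalCStarAlgebra C] [PartialOrder C] [StarOrderedRing C] :
    (PurelyInfinite C ↔ WeaklyPurelyInfinite C ∧ OrthPairs C) ∧
      (NoQuotientProjection C → WeaklyPurelyInfinite C → PurelyInfinite C) :=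
  ⟨⟨fun h => ⟨weaklyPurelyInfinite_of_purelyInfinite h, orthPairs_of_purelyInfinite h⟩,
      fun h => purelyInfinite_of_orthPairs h.1 h.2⟩,
    fun hN hW => purelyInfinite_of_orthPairs hW (orthPairs_of_noQuotientProjection hN)⟩

end Vale.Agent.Results.P133.OrthogonalPairs
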