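import Vale.Agent.P133.W.Halving
import Vale.Agent.P133.Dim.Main

/-!
P133: for algebras whose ideal lattice has finite covering dimension, weak pure infiniteness
implies pure infiniteness and strong pure infiniteness.
-/

namespace Vale.Agent.Results.P133.WeakCoveringDimension

open Vale.Agent.P133

theorem result {C : Type*} [NonUnitalCStarAlgebra C] [PartialOrder C] [StarOrderedRing C]
    (hC : WeaklyPurelyInfinite C) (m : ℕ) (hD : CoverDim C m) :
    PurelyInfinite C ∧ StronglyPurelyInfinite C :=
  ⟨purelyInfinite_of_weakly hC hD,
    stronglyPurelyInfinite_of_coverDim (purelyInfinite_of_weakly hC hD) hD⟩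

end Vale.Agent.Results.P133.WeakCoveringDimension
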